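import Vale.Agent.P227.Full.Bridge
import Vale.Agent.P227.M.Top.Chain
import Vale.Agent.P227.M.END.ToQ1
import Vale.Agent.P227.M.Loc.Main
import Vale.Agent.P227.M.ID.Div294
import Vale.Agent.P227.M.ID.XKey
import Vale.Agent.P227.M.MM.Top618
import Vale.Agent.P227.M.LIN.Most
import Vale.Agent.P227.M.SC2.MargN

namespace Vale.Agent.P227.Full

open Vale.Agent.P227.M

/-- assembly from the blocks that are still open -/
theorem q1_of (hH : StmtHeat) (hE : LIN.StmtESA) (hH1 : LIN.StmtH1) : StmtQ1 :=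
  q1_of_blocks (HL.stmtSC_of_heat hH) MM.stmtMM_of_sc B294.stmtStein B294.stmtIBP B294.stmtDiv
    X.stmtKey (LIN.stmtLin_of_two hE hH1) stmtLocal_of END.stmtQ1_of_stmtLocal

end Vale.Agent.P227.Full
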