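import Vale.Agent.P227.Defs

open MeasureTheory

namespace Vale.Agent.P227.Full

/-- The real-valued form of the inequality gives the `ENNReal` form. -/
theorem bridge
    (H : ∀ (n : ℕ) (K L : Set (EuclideanSpace ℝ (Fin n))) (t : ℝ), 0 < n →
      SymConvexBody K → SymConvexBody L → 0 ≤ t → t ≤ 1 →
      (volume K).toReal ^ (1 - t) * (volume L).toReal ^ t ≤ (volume (logComb t K L)).toReal)
    (n : ℕ) (K L : Set (EuclideanSpace ℝ (Fin n))) (t : ℝ) (hn : 0 < n)
    (hK : SymConvexBody K) (hL : SymConvexBody L) (ht0 : 0 ≤ t) (ht1 : t ≤ 1) :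
    volume K ^ (1 - t) * volume L ^ t ≤ volume (logComb t K L) := by
  have h := H n K L t hn hK hL ht0 ht1
  have hKf : volume K ≠ ⊤ := hK.isCompact.measure_lt_top.ne
  have hLf : volume L ≠ ⊤ := hL.isCompact.measure_lt_top.ne
  by_cases hC : volume (logComb t K L) = ⊤
  · rw [hC]
    exact le_top
  have hl : volume K ^ (1 - t) * volume L ^ t ≠ ⊤ :=
    ENNReal.mul_ne_top (ENNReal.rpow_ne_top_of_nonneg (by linarith) hKf)
      (ENNReal.rpow_ne_top_of_nonneg ht0 hLf)
  rw [← ENNReal.toReal_le_toReal hl hC, ENNReal.toReal_mul, ← ENNReal.toReal_rpow,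
    ← ENNReal.toReal_rpow]
  exact h

end Vale.Agent.P227.Full
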